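import Vale.Agent.P063.Stmt

set_option autoImplicit false

namespace Vale.Agent.P063

/-- The total influence `I_p(P) = ∑_e Pr_p(exactly one of x_{e←1}, x_{e←0} lies in P)` of a family
`P` of `r`-uniform hypergraphs on `[n]` (`x_{e←b}` is `x` with the coordinate `e` set to `b`). -/
noncomputable def totalInfl {n r : ℕ} (p : ℝ) (P : Set (Edge n r → Bool)) : ℝ :=
  ∑ e : Edge n r,
    mu p {x | ¬ (Function.update x e true ∈ P ↔ Function.update x e false ∈ P)}

end Vale.Agent.P063
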