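import Vale.Agent.P063.H291.Width

/-!
# The lower bound for the width for all `ε`
-/

set_option autoImplicit false

namespace Vale.Agent.P063.H291

open Finset Vale.Agent.P063

variable {n r : ℕ}

/-- the critical probability is monotone in the level -/
lemma crit_mono {P : Set (Edge n r → Bool)} (hP : IsUpperSet P) (hne : P.Nonempty)
    {a b : ℝ} (hab : a ≤ b) (hb : b ≤ 1) : critProb a P ≤ critProb b P :=
  csInf_le_csInf (crit_bdd P a) ⟨1, crit_nonempty hP hne hb⟩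
    fun _ hp => ⟨hp.1, hp.2.1, hab.trans hp.2.2⟩

lemma width_anti {P : Set (Edge n r → Bool)} (hP : IsUpperSet P) (hne : P.Nonempty)
    {ε δ : ℝ} (h0 : 0 < ε) (h : ε ≤ δ) (h1 : δ < 1 / 2) : width δ P ≤ width ε P := by
  unfold width
  have e1 := crit_mono hP hne (a := 1 - δ) (b := 1 - ε) (by linarith only [h])
    (by linarith only [h0])
  have e2 := crit_mono hP hne (a := ε) (b := δ) h (by linarith only [h1])
  linarith only [e1, e2]

lemma first_moment_exp {r n j k : ℕ} (hr : 2 ≤ r) (hj1 : 1 ≤ j) (hk : k = j + (r - 1))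
    (hn2 : 2 ≤ n) (hl1 : 1 ≤ Real.log n)
    (hjpow : 4 * r * (r.factorial : ℝ) * Real.log n ≤ (j:ℝ) ^ (r - 1)) :
    (n : ℝ) ^ k * (1 / 2) ^ (k.choose r)
      < Real.exp (-(Real.log n ^ ((r : ℝ) / ((r : ℝ) - 1)))) := by
  have hr2 : (2:ℝ) ≤ r := by exact_mod_cast hr
  have hr1 : (0:ℝ) < (r:ℝ) - 1 := by linarith only [hr2]
  have hcast : ((r - 1 : ℕ) : ℝ) = (r : ℝ) - 1 := by
    rw [Nat.cast_sub (by omega)]; simp
  set Λ := Real.log n with hΛ
  have hΛ0 : 0 < Λ := by linarith only [hl1]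
  have hch : ((j:ℝ) ^ r) / r.factorial ≤ (k.choose r : ℝ) := by
    have := Nat.pow_le_choose (α := ℝ) r k
    have h2 : k + 1 - r = j := by omega
    rw [h2] at this
    exact this
  have hnpos : (0:ℝ) < n := by
    have : 0 < n := by omega
    exact_mod_cast this
  have hjr : (1:ℝ) ≤ j := by exact_mod_cast hj1
  have hlog2 : (1:ℝ) / 2 < Real.log 2 := by
    have := Real.log_two_gt_d9; linarith only [this]
  have hjr' : (j:ℝ) ^ r = j * (j:ℝ) ^ (r - 1) := by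
    obtain ⟨q, rfl⟩ : ∃ q, r = q + 1 := ⟨r - 1, by omega⟩
    simp only [Nat.add_sub_cancel]
    ring
  have hfacpos : (0:ℝ) < (r.factorial : ℝ) := by exact_mod_cast Nat.factorial_pos r
  have hfac1 : (1:ℝ) ≤ (r.factorial : ℝ) := by
    exact_mod_cast Nat.one_le_iff_ne_zero.2 (Nat.factorial_ne_zero r)
  have hch2 : 4 * r * j * Λ ≤ (k.choose r : ℝ) := by
    refine le_trans ?_ hch
    rw [le_div_iff₀ hfacpos, hjr']
    calc 4 * r * j * Λ * (r.factorial : ℝ) = j * (4 * r * (r.factorial : ℝ) * Λ) := by ring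
      _ ≤ j * (j:ℝ) ^ (r - 1) := mul_le_mul_of_nonneg_left hjpow (by positivity)
  have hkr : (k:ℝ) ≤ r * j := by
    rw [hk, Nat.cast_add, hcast]
    have h5 : 0 ≤ ((r:ℝ) - 1) * ((j:ℝ) - 1) :=
      mul_nonneg (by linarith only [hr2]) (by linarith only [hjr])
    linarith only [h5]
  -- `j ≥ Λ ^ (1 / (r - 1))`, hence `j Λ ≥ Λ ^ (r / (r - 1))`
  have hjΛ : Λ ^ ((r : ℝ) / ((r : ℝ) - 1)) ≤ j * Λ := by
    have h1 : Λ ≤ (j:ℝ) ^ (r - 1) := by
      refine le_trans ?_ hjpow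
      have : (1:ℝ) ≤ 4 * r * (r.factorial : ℝ) := by
        calc (1:ℝ) = 1 * 1 := by ring
          _ ≤ (4 * r) * (r.factorial : ℝ) :=
            mul_le_mul (by linarith only [hr2]) hfac1 (by norm_num) (by linarith only [hr2])
      calc Λ = 1 * Λ := by ring
        _ ≤ _ := mul_le_mul_of_nonneg_right this hΛ0.le
    have h2 : Λ ^ (1 / ((r : ℝ) - 1)) ≤ j := by
      have h3 : Λ ^ (1 / ((r : ℝ) - 1)) ≤ ((j:ℝ) ^ (r - 1)) ^ (1 / ((r : ℝ) - 1)) :=
        Real.rpow_le_rpow hΛ0.le h1 (by positivity)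
      have h4 : ((j:ℝ) ^ (r - 1)) ^ (1 / ((r : ℝ) - 1)) = j := by
        rw [one_div, ← hcast]
        exact Real.pow_rpow_inv_natCast (by linarith only [hjr]) (by omega)
      rwa [h4] at h3
    have h5 : Λ ^ ((r : ℝ) / ((r : ℝ) - 1)) = Λ ^ (1 / ((r : ℝ) - 1)) * Λ := by
      have e : (r : ℝ) / ((r : ℝ) - 1) = 1 / ((r : ℝ) - 1) + 1 := by
        field_simp
        ring
      rw [e, Real.rpow_add hΛ0, Real.rpow_one]
    rw [h5]
    exact mul_le_mul_of_nonneg_right h2 hΛ0.le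
  have hlt : (k:ℝ) * Λ - (k.choose r : ℝ) * Real.log 2
      < -(Λ ^ ((r : ℝ) / ((r : ℝ) - 1))) := by
    have hjΛ0 : 0 < (j:ℝ) * Λ := mul_pos (by linarith only [hjr]) hΛ0
    have e1 : (k:ℝ) * Λ ≤ r * (j * Λ) := by
      calc (k:ℝ) * Λ ≤ (r * j) * Λ := mul_le_mul_of_nonneg_right hkr hΛ0.le
        _ = _ := by ring
    have e2 : 2 * r * (j * Λ) < (k.choose r : ℝ) * Real.log 2 := by
      have hpos : (0:ℝ) < (k.choose r : ℝ) := by
        refine lt_of_lt_of_le ?_ hch2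
        have : (0:ℝ) < r := by linarith only [hr2]
        positivity
      calc 2 * r * (j * Λ) = (4 * r * j * Λ) * (1 / 2) := by ring
        _ ≤ (k.choose r : ℝ) * (1 / 2) := mul_le_mul_of_nonneg_right hch2 (by norm_num)
        _ < (k.choose r : ℝ) * Real.log 2 := mul_lt_mul_of_pos_left hlog2 hpos
    have e3 : j * Λ ≤ r * (j * Λ) := le_mul_of_one_le_left hjΛ0.le (by linarith only [hr2])
    linarith only [e1, e2, e3, hjΛ]
  have hexp : (n : ℝ) ^ k * (1 / 2) ^ (k.choose r)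
      = Real.exp ((k:ℝ) * Λ - (k.choose r : ℝ) * Real.log 2) := by
    rw [Real.exp_sub, Real.exp_nat_mul, Real.exp_nat_mul, Real.exp_log hnpos,
      Real.exp_log (by norm_num : (0:ℝ) < 2)]
    rw [one_div, inv_pow, div_eq_mul_inv]
  rw [hexp]
  exact Real.exp_lt_exp.2 hlt

/-- choice of the clique size -/
lemma clique_params_exp (hr : 2 ≤ r) :
    ∃ M : ℝ, 0 < M ∧ ∃ n0 : ℕ, 2 ≤ n0 ∧ ∀ n : ℕ, n0 ≤ n → 1 ≤ Real.log n ∧
      ∃ k : ℕ, r ≤ k ∧ k ≤ n ∧ (n : ℝ) ^ k * (1 / 2) ^ (k.choose r)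
        < Real.exp (-(Real.log n ^ ((r : ℝ) / ((r : ℝ) - 1)))) ∧
      (k.choose r : ℝ) ≤ M * Real.log n ^ ((r : ℝ) / ((r : ℝ) - 1)) := by
  have hr2 : (2:ℝ) ≤ r := by exact_mod_cast hr
  have hr1 : (0:ℝ) < (r:ℝ) - 1 := by linarith only [hr2]
  set A : ℝ := 4 * r * (r.factorial : ℝ) with hA
  have hfac : (1:ℝ) ≤ (r.factorial : ℝ) := by
    exact_mod_cast Nat.one_le_iff_ne_zero.2 (Nat.factorial_ne_zero r)
  have hA1 : 1 ≤ A := by
    rw [hA]
    calc (1:ℝ) = 1 * 1 := by ring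
      _ ≤ (4 * r) * (r.factorial : ℝ) :=
        mul_le_mul (by linarith only [hr2]) hfac (by norm_num) (by linarith only [hr2])
  set α : ℝ := (r : ℝ) / ((r : ℝ) - 1) with hα
  have hA0 : 0 < A := by linarith only [hA1]
  have hAα : 0 < A ^ α := Real.rpow_pos_of_pos hA0 _
  refine ⟨(2 * r) ^ r * A ^ α, by positivity, ?_⟩
  obtain ⟨n0, hn02, hn0⟩ := eventually_big (2 * r * A) (by positivity) 1 one_pos
  refine ⟨n0, hn02, fun n hn => ?_⟩
  obtain ⟨hl1, hln, -⟩ := hn0 n hn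
  refine ⟨hl1, ?_⟩
  have hΛ0 : 0 < Real.log n := by linarith only [hl1]
  have hAΛ1 : 1 ≤ A * Real.log n := by
    calc (1:ℝ) = 1 * 1 := by ring
      _ ≤ A * Real.log n := mul_le_mul hA1 hl1 (by norm_num) hA0.le
  have hAΛ0 : 0 < A * Real.log n := by linarith only [hAΛ1]
  have ht1 : 1 ≤ (A * Real.log n) ^ (1 / ((r:ℝ) - 1)) :=
    Real.one_le_rpow hAΛ1 (by positivity)
  have hjt := Nat.le_ceil ((A * Real.log n) ^ (1 / ((r:ℝ) - 1)))
  have hj2 : ((⌈(A * Real.log n) ^ (1 / ((r:ℝ) - 1))⌉₊ : ℕ) : ℝ)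
      ≤ 2 * (A * Real.log n) ^ (1 / ((r:ℝ) - 1)) := by
    have := Nat.ceil_lt_add_one
      (show 0 ≤ (A * Real.log n) ^ (1 / ((r:ℝ) - 1)) by linarith only [ht1])
    linarith
  set j : ℕ := ⌈(A * Real.log n) ^ (1 / ((r:ℝ) - 1))⌉₊ with hj
  have hj1 : 1 ≤ j := by
    have : (1:ℝ) ≤ j := le_trans ht1 hjt
    exact_mod_cast this
  have hcast : ((r - 1 : ℕ) : ℝ) = (r : ℝ) - 1 := by
    rw [Nat.cast_sub (by omega)]; simp
  have htpow : ((A * Real.log n) ^ (1 / ((r:ℝ) - 1))) ^ (r - 1) = A * Real.log n := by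
    rw [one_div, ← hcast]
    exact Real.rpow_inv_natCast_pow hAΛ0.le (by omega)
  have hjpow : A * Real.log n ≤ (j:ℝ) ^ (r - 1) := by
    calc A * Real.log n = ((A * Real.log n) ^ (1 / ((r:ℝ) - 1))) ^ (r - 1) := htpow.symm
      _ ≤ (j:ℝ) ^ (r - 1) := pow_le_pow_left₀ (by linarith only [ht1]) hjt _
  refine ⟨j + (r - 1), by omega, ?_, ?_, ?_⟩
  · exact k_le_aux hr hj1 rfl hAΛ1 hj2 (by rw [← mul_assoc]; exact hln)
  · exact first_moment_exp hr hj1 rfl (le_trans hn02 hn) hl1 hjpow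
  · refine (size_aux hr hj1 rfl hAΛ0 hj2).trans (le_of_eq ?_)
    rw [Real.mul_rpow hA0.le hΛ0.le]
    ring

/-- **the lower bound for all `ε`** -/
theorem lower_all (hr : 2 ≤ r) :
    ∃ c : ℝ, 0 < c ∧ ∃ n0 : ℕ, ∀ n : ℕ, n0 ≤ n → ∀ ε : ℝ, 0 < ε → ε < 1 / 2 →
      ∃ P : Set (Edge n r → Bool),
      IsProperty P ∧ IsUpperSet P ∧ P.Nonempty ∧ P ≠ Set.univ ∧
      c * min 1 (Real.log ((1 - ε) / ε) * Real.log n ^ (-((r : ℝ) / ((r : ℝ) - 1))))
        ≤ width ε P := by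
  obtain ⟨M, hM, n0, hn02, h⟩ := clique_params_exp hr
  refine ⟨1 / (8 * M), by positivity, n0, fun n hn ε hε0 hε1 => ?_⟩
  obtain ⟨hl1, k, hrk, hkn, hfm, hch⟩ := h n hn
  have hr2 : (2:ℝ) ≤ r := by exact_mod_cast hr
  have hr1 : (0:ℝ) < (r:ℝ) - 1 := by linarith only [hr2]
  have hΛ0 : 0 < Real.log n := by linarith only [hl1]
  set α : ℝ := (r : ℝ) / ((r : ℝ) - 1) with hα
  have hα0 : 0 ≤ α := by rw [hα]; positivity
  have hΛα1 : 1 ≤ Real.log n ^ α := Real.one_le_rpow hl1 hα0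
  have hΛα : 0 < Real.log n ^ α := by linarith only [hΛα1]
  have hchpos : (0:ℝ) < (k.choose r : ℝ) := by exact_mod_cast Nat.choose_pos hrk
  refine ⟨hasClique n r k, clique_property k, clique_upper k, clique_nonempty hkn,
    clique_ne_univ hrk, ?_⟩
  rw [Real.rpow_neg hΛ0.le]
  -- the bound at a level `δ ≥ exp (-Λ^α)`
  have main : ∀ δ : ℝ, Real.exp (-(Real.log n ^ α)) ≤ δ → δ < 1 / 2 →
      1 / (2 * M) * (Real.log ((1 - δ) / δ) * (Real.log n ^ α)⁻¹)
        ≤ width δ (hasClique n r k) := by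
    intro δ hδ hδ1
    have hδ0 : 0 < δ := lt_of_lt_of_le (Real.exp_pos _) hδ
    have hlog : 0 < Real.log ((1 - δ) / δ) := by
      apply Real.log_pos
      rw [lt_div_iff₀ hδ0]
      linarith only [hδ1]
    refine le_trans ?_ (clique_width hrk hkn hδ0 hδ1 (lt_of_lt_of_le hfm hδ))
    rw [le_div_iff₀ (by positivity)]
    calc 1 / (2 * M) * (Real.log ((1 - δ) / δ) * (Real.log n ^ α)⁻¹) * (2 * (k.choose r : ℝ))
        ≤ 1 / (2 * M) * (Real.log ((1 - δ) / δ) * (Real.log n ^ α)⁻¹)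
          * (2 * (M * Real.log n ^ α)) := by
          apply mul_le_mul_of_nonneg_left _ (by positivity)
          linarith only [hch]
      _ = Real.log ((1 - δ) / δ) := by
          field_simp
  have h8 : 1 / (8 * M) ≤ 1 / (2 * M) :=
    one_div_le_one_div_of_le (by positivity) (by linarith only [hM])
  rcases le_or_gt (Real.exp (-(Real.log n ^ α))) ε with hc | hc
  · have hlog : 0 < Real.log ((1 - ε) / ε) := by
      apply Real.log_pos
      rw [lt_div_iff₀ hε0]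
      linarith only [hε1]
    refine le_trans ?_ (main ε hc hε1)
    have hnn : 0 ≤ Real.log ((1 - ε) / ε) * (Real.log n ^ α)⁻¹ := by positivity
    calc 1 / (8 * M) * min 1 (Real.log ((1 - ε) / ε) * (Real.log n ^ α)⁻¹)
        ≤ 1 / (8 * M) * (Real.log ((1 - ε) / ε) * (Real.log n ^ α)⁻¹) :=
          mul_le_mul_of_nonneg_left (min_le_right _ _) (by positivity)
      _ ≤ _ := mul_le_mul_of_nonneg_right h8 hnn
  · -- small `ε`
    set δ : ℝ := Real.exp (-(Real.log n ^ α)) with hδ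
    have hδ0 : 0 < δ := Real.exp_pos _
    have hδe : δ ≤ Real.exp (-1) := Real.exp_le_exp.2 (by linarith only [hΛα1])
    have hexp1 : Real.exp (-1) < 1 / 2 := by
      have h1 := Real.exp_one_gt_d9
      rw [Real.exp_neg, inv_eq_one_div]
      exact one_div_lt_one_div_of_lt (by norm_num) (by linarith only [h1])
    have hδ1 : δ < 1 / 2 := lt_of_le_of_lt hδe hexp1
    refine le_trans ?_ (width_anti (clique_upper k) (clique_nonempty hkn) hε0 hc.le hδ1)
    refine le_trans ?_ (main δ le_rfl hδ1)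
    have hl : (1:ℝ) / 4 * Real.log n ^ α ≤ Real.log ((1 - δ) / δ) := by
      rw [Real.log_div (by linarith only [hδ1] : (0:ℝ) < 1 - δ).ne' hδ0.ne', hδ, Real.log_exp,
        ← hδ]
      have h1 : Real.log (1 / 2) ≤ Real.log (1 - δ) :=
        Real.log_le_log (by norm_num) (by linarith only [hδ1])
      have h2 : Real.log (1 / 2) = - Real.log 2 := by
        rw [one_div, Real.log_inv]
      have h3 := Real.log_two_lt_d9
      rw [h2] at h1
      linarith only [h1, h3, hΛα1]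
    calc 1 / (8 * M) * min 1 (Real.log ((1 - ε) / ε) * (Real.log n ^ α)⁻¹)
        ≤ 1 / (8 * M) * 1 := mul_le_mul_of_nonneg_left (min_le_left _ _) (by positivity)
      _ = 1 / (2 * M) * ((1 / 4 * Real.log n ^ α) * (Real.log n ^ α)⁻¹) := by
          field_simp
          ring
      _ ≤ _ := by
          apply mul_le_mul_of_nonneg_left _ (by positivity)
          exact mul_le_mul_of_nonneg_right hl (by positivity)

end Vale.Agent.P063.H291
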