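import Vale.Agent.P063.H291.Defs
import Vale.Agent.P063.Bdl.B1

/-!
# Sharp total influence of hypergraph properties, and the order of the width, uniformly in `ε`
-/

set_option autoImplicit false

namespace Vale.Agent.P063.H291

open Finset Vale.Agent.P063

section general

variable {ι : Type*} [Fintype ι] [DecidableEq ι]

/-- variance influence of a Boolean function, not necessarily monotone -/
lemma infl_sq {p : ℝ} (f : (ι → Bool) → ℝ) (i : ι) :
    Ex p (fun x => (f x - avg p {i} f x) ^ 2)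
      = p * (1 - p) *
        Ex p (fun x => (f (Function.update x i true) - f (Function.update x i false)) ^ 2) := by
  rw [← Ex_avg p {i} (fun x => (f x - avg p {i} f x) ^ 2), ← Ex_mul_left]
  congr 1
  funext x
  rw [avg_single, avg_single, avg_single]
  simp only [Function.update_idem]
  ring

/-- Total influence identity -/
theorem sum_card_sq {p : ℝ} (h0 : 0 < p) (h1 : p < 1) (f : (ι → Bool) → ℝ) :
    ∑ S : Finset ι, (S.card : ℝ) * fc p f S ^ 2
      = p * (1 - p) * ∑ i,
        Ex p (fun x => (f (Function.update x i true) - f (Function.update x i false)) ^ 2) := by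
  have e1 : ∑ S : Finset ι, (S.card : ℝ) * fc p f S ^ 2
      = ∑ i : ι, ∑ S ∈ Finset.univ.filter (fun S : Finset ι => ¬ Disjoint S {i}),
        fc p f S ^ 2 := by
    simp only [Finset.sum_filter]
    rw [Finset.sum_comm]
    refine Finset.sum_congr rfl fun S _ => ?_
    simp only [Finset.disjoint_singleton_right, not_not]
    rw [Finset.sum_ite_mem, Finset.univ_inter, Finset.sum_const, nsmul_eq_mul]
  rw [e1]
  simp only [← Ex_sq_sub_avg h0 h1]
  simp only [infl_sq]
  rw [← Finset.mul_sum]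

end general

section infl

variable {n r : ℕ}

lemma totalInfl_eq (p : ℝ) (P : Set (Edge n r → Bool)) :
    totalInfl p P = ∑ e : Edge n r, Ex p (fun x =>
      (ind P (Function.update x e true) - ind P (Function.update x e false)) ^ 2) := by
  unfold totalInfl
  refine Finset.sum_congr rfl fun e _ => ?_
  rw [mu_eq]
  congr 1
  funext x
  unfold ind
  by_cases ha : Function.update x e true ∈ P <;> by_cases hb : Function.update x e false ∈ P <;>
    simp [ha, hb]

lemma sum_card_ind {p : ℝ} (h0 : 0 < p) (h1 : p < 1) (P : Set (Edge n r → Bool)) :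
    ∑ S : Finset (Edge n r), (S.card : ℝ) * fc p (ind P) S ^ 2
      = p * (1 - p) * totalInfl p P := by
  rw [totalInfl_eq]
  exact sum_card_sq h0 h1 (ind P)

lemma totalInfl_nonneg {p : ℝ} (h0 : 0 ≤ p) (h1 : p ≤ 1) (P : Set (Edge n r → Bool)) :
    0 ≤ totalInfl p P :=
  Finset.sum_nonneg fun _ _ => mu_nonneg h0 h1 _

/-- Poincaré -/
lemma var_le {p : ℝ} (h0 : 0 < p) (h1 : p < 1) (P : Set (Edge n r → Bool)) :
    mu p P - mu p P ^ 2 ≤ totalInfl p P := by
  have hT := totalInfl_nonneg (n := n) (r := r) h0.le h1.le P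
  rw [mu_eq, var_eq h0 h1 (ind P) (ind_bool P)]
  calc ∑ S ∈ Finset.univ.filter (fun S : Finset (Edge n r) => S.Nonempty), fc p (ind P) S ^ 2
      ≤ ∑ S ∈ Finset.univ.filter (fun S : Finset (Edge n r) => S.Nonempty),
        (S.card : ℝ) * fc p (ind P) S ^ 2 := by
        refine Finset.sum_le_sum fun S hS => ?_
        rw [Finset.mem_filter] at hS
        have h2 : (1 : ℝ) ≤ S.card := by exact_mod_cast hS.2.card_pos
        exact le_mul_of_one_le_left (sq_nonneg _) h2
    _ ≤ ∑ S : Finset (Edge n r), (S.card : ℝ) * fc p (ind P) S ^ 2 :=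
        Finset.sum_le_sum_of_subset_of_nonneg (Finset.subset_univ _) fun S _ _ =>
          mul_nonneg (Nat.cast_nonneg _) (sq_nonneg _)
    _ = p * (1 - p) * totalInfl p P := sum_card_ind h0 h1 P
    _ ≤ 1 * totalInfl p P := by
        refine mul_le_mul_of_nonneg_right ?_ hT
        nlinarith only [sq_nonneg p, h0, h1]
    _ = totalInfl p P := one_mul _

/-- Lower bound for the total influence, for all `p`, large `n`. -/
theorem infl_large (hr : 2 ≤ r) : ∃ n0 : ℕ, 2 ≤ n0 ∧ ∀ n : ℕ, n0 ≤ n →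
    ∀ P : Set (Edge n r → Bool), IsProperty P → ∀ p : ℝ, 0 < p → p < 1 →
      Real.log n ^ ((r : ℝ) / ((r : ℝ) - 1)) * (mu p P - mu p P ^ 2)
        ≤ 257 * r * totalInfl p P := by
  obtain ⟨n0, hn02, hn0⟩ := eventually_good
  refine ⟨n0, hn02, fun n hn P hP p h0 h1 => ?_⟩
  obtain ⟨hΛ1, hbig⟩ := hn0 n hn
  have hT := totalInfl_nonneg (n := n) (r := r) h0.le h1.le P
  have hI := sum_card_ind h0 h1 P
  obtain ⟨d, hd1, hd2⟩ := params hr hΛ1 hbig h0 h1
  have hΛ0 : 0 < Real.log n := by linarith only [hΛ1]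
  have hr2 : (2 : ℝ) ≤ r := by exact_mod_cast hr
  have hr1 : (0 : ℝ) < (r : ℝ) - 1 := by linarith only [hr2]
  have hLpos : (0 : ℝ) < Nat.sqrt n := lt_of_lt_of_le (by positivity) hbig
  have hL1 : 1 ≤ Nat.sqrt n := by
    have : 0 < Nat.sqrt n := by exact_mod_cast hLpos
    exact this
  have hcore := core (n := n) (r := r) (L := Nat.sqrt n) (d := d) hL1 (Nat.sqrt_le n) h0 h1
    (ind P) (ind_bool P) (ind_inv hP) (1 / Real.log n ^ 2) (by positivity) hd1
    (((d : ℝ) + 1) ^ ((r : ℝ) / ((r : ℝ) - 1)) / r)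
    (div_pos (Real.rpow_pos_of_pos (by (clear * -; positivity)) _) (by linarith only [hr2]))
    (fun S hS hdeg => card_ge hr d S hS hdeg)
  rw [hI, ← mu_eq] at hcore
  have hΛα : 0 < Real.log n ^ ((r : ℝ) / ((r : ℝ) - 1)) := Real.rpow_pos_of_pos hΛ0 _
  have h2 : mu p P - mu p P ^ 2
      ≤ (257 * r * (1 / Real.log n ^ ((r : ℝ) / ((r : ℝ) - 1)))) * totalInfl p P := by
    calc _ ≤ _ := hcore
      _ = (p * (1 - p) * (2 * r * (1 / Real.log n ^ 2) + 2 * r / (Nat.sqrt n : ℝ)
        + 1 / (((d : ℝ) + 1) ^ ((r : ℝ) / ((r : ℝ) - 1)) / r))) * totalInfl p P := by ring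
      _ ≤ _ := mul_le_mul_of_nonneg_right hd2 hT
  calc Real.log n ^ ((r : ℝ) / ((r : ℝ) - 1)) * (mu p P - mu p P ^ 2)
      ≤ Real.log n ^ ((r : ℝ) / ((r : ℝ) - 1))
        * ((257 * r * (1 / Real.log n ^ ((r : ℝ) / ((r : ℝ) - 1)))) * totalInfl p P) :=
        mul_le_mul_of_nonneg_left h2 hΛα.le
    _ = 257 * r * totalInfl p P := by
        field_simp

/-- Lower bound for the total influence, for all `p`, all `n ≥ r`. -/
theorem infl_all (hr : 2 ≤ r) : ∃ C : ℝ, 0 < C ∧ ∀ n : ℕ, r ≤ n →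
    ∀ P : Set (Edge n r → Bool), IsProperty P → ∀ p : ℝ, 0 < p → p < 1 →
      Real.log n ^ ((r : ℝ) / ((r : ℝ) - 1)) * (mu p P * (1 - mu p P)) ≤ C * totalInfl p P := by
  obtain ⟨n0, hn02, hn0⟩ := infl_large hr
  have hr2 : (2:ℝ) ≤ r := by exact_mod_cast hr
  have hr1 : (0:ℝ) < (r:ℝ) - 1 := by linarith only [hr2]
  have hr0 : (0:ℝ) < r := by linarith only [hr2]
  have hα2 : (r : ℝ) / ((r : ℝ) - 1) ≤ 2 := by rw [div_le_iff₀ hr1]; linarith only [hr2]
  have hα0 : 0 < (r : ℝ) / ((r : ℝ) - 1) := by positivity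
  refine ⟨257 * r + (1 + Real.log n0) ^ 2, by positivity, ?_⟩
  intro n hrn P hP p h0 h1
  have hT := totalInfl_nonneg (n := n) (r := r) h0.le h1.le P
  have hv : mu p P * (1 - mu p P) = mu p P - mu p P ^ 2 := by ring
  rw [hv]
  have hn2 : (2:ℝ) ≤ n := by exact_mod_cast (le_trans hr hrn)
  have hl0 : 0 < Real.log n := Real.log_pos (by linarith only [hn2])
  by_cases hn : n0 ≤ n
  · refine (hn0 n hn P hP p h0 h1).trans (mul_le_mul_of_nonneg_right ?_ hT)
    have : 0 ≤ (1 + Real.log n0) ^ 2 := sq_nonneg _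
    linarith only [this]
  · push Not at hn
    have hlog : Real.log n ≤ Real.log n0 := by
      apply Real.log_le_log (by linarith only [hn2])
      exact_mod_cast hn.le
    have h3 : Real.log n ^ ((r : ℝ) / ((r : ℝ) - 1)) ≤ (1 + Real.log n0) ^ 2 := by
      calc Real.log n ^ ((r : ℝ) / ((r : ℝ) - 1))
          ≤ (1 + Real.log n0) ^ ((r : ℝ) / ((r : ℝ) - 1)) :=
            Real.rpow_le_rpow hl0.le (by linarith only [hlog]) hα0.le
        _ ≤ (1 + Real.log n0) ^ (2:ℝ) :=
            Real.rpow_le_rpow_of_exponent_le (by linarith only [hl0, hlog]) hα2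
        _ = (1 + Real.log n0) ^ 2 := Real.rpow_two _
    have h4 := var_le h0 h1 P
    have h5 : 0 ≤ Real.log n ^ ((r : ℝ) / ((r : ℝ) - 1)) := Real.rpow_nonneg hl0.le _
    calc Real.log n ^ ((r : ℝ) / ((r : ℝ) - 1)) * (mu p P - mu p P ^ 2)
        ≤ Real.log n ^ ((r : ℝ) / ((r : ℝ) - 1)) * totalInfl p P :=
          mul_le_mul_of_nonneg_left h4 h5
      _ ≤ (1 + Real.log n0) ^ 2 * totalInfl p P := mul_le_mul_of_nonneg_right h3 hT
      _ ≤ _ := by
          refine mul_le_mul_of_nonneg_right ?_ hT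
          linarith only [hr0]

/-- Margulis–Russo: for an increasing family the total influence is the derivative -/
theorem mu_russo {P : Set (Edge n r → Bool)} (hP : IsUpperSet P) {p : ℝ} (h0 : 0 < p)
    (h1 : p < 1) : HasDerivAt (fun p => mu p P) (totalInfl p P) p := by
  obtain ⟨D, hD, hDI⟩ := russo h0 h1 (ind P) (ind_bool P) (fun x y h => ind_mono hP h)
  rw [sum_card_ind h0 h1 P] at hDI
  have hpq : p * (1 - p) ≠ 0 := (mul_pos h0 (by linarith only [h1])).ne'
  have e : totalInfl p P = D := mul_left_cancel₀ hpq hDI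
  rw [e, mu_fun]
  exact hD

end infl

end Vale.Agent.P063.H291
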