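import Vale.Agent.P063.H291.Main

/-!
# Widths: the dependence on `ε`
-/

set_option autoImplicit false

namespace Vale.Agent.P063.H291

open Finset Vale.Agent.P063

section width

variable {n r : ℕ}

/-- `p_b(P) - p_a(P)` is at most `c (logit b - logit a) / Λ` -/
lemma crit_bound {c Λ : ℝ} (hc : 0 < c) (hΛ : 0 < Λ) {P : Set (Edge n r → Bool)}
    (hP : IsUpperSet P) (hne : P.Nonempty)
    (hinf : ∀ p : ℝ, 0 < p → p < 1 → Λ * (mu p P * (1 - mu p P)) ≤ c * totalInfl p P)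
    {a b : ℝ} (ha : 0 < a) (hab : a ≤ b) (hb : b < 1) :
    (critProb b P - critProb a P) * Λ
      ≤ c * (Real.log (b / (1 - b)) - Real.log (a / (1 - a))) := by
  have hlog : Real.log (a / (1 - a)) ≤ Real.log (b / (1 - b)) := by
    apply Real.log_le_log (div_pos ha (by linarith only [hab, hb]))
    rw [div_le_div_iff₀ (by linarith only [hab, hb]) (by linarith only [hb])]
    nlinarith only [hab]
  set A := critProb a P with hA
  set B := critProb b P with hB
  rcases le_or_gt B A with hBA | hAB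
  · have h1 : (B - A) * Λ ≤ 0 :=
      mul_nonpos_of_nonpos_of_nonneg (by linarith only [hBA]) hΛ.le
    have h2 : 0 ≤ c * (Real.log (b / (1 - b)) - Real.log (a / (1 - a))) :=
      mul_nonneg hc.le (by linarith only [hlog])
    linarith only [h1, h2]
  have hA0 : 0 ≤ A := crit_nonneg hP hne (by linarith only [hab, hb])
  have hB1 : B ≤ 1 := crit_le_one hP hne (by linarith only [hb])
  have hmid : ∀ p ∈ Set.Ioo A B, a ≤ mu p P ∧ mu p P ≤ b := by
    intro p hp
    have hp0 : 0 ≤ p := by linarith only [hA0, hp.1]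
    have hp1 : p ≤ 1 := by linarith only [hB1, hp.2]
    constructor
    · obtain ⟨p', hp', hlt⟩ := exists_lt_of_csInf_lt
        ⟨1, crit_nonempty hP hne (a := a) (by linarith only [hab, hb])⟩ hp.1
      exact le_trans hp'.2.2 (mu_monoOn hP ⟨hp'.1, hp'.2.1⟩ ⟨hp0, hp1⟩ hlt.le)
    · by_contra hcc
      push Not at hcc
      have : B ≤ p := csInf_le (crit_bdd P b) ⟨hp0, hp1, hcc.le⟩
      linarith only [this, hp.2]
  have hcl : IsClosed {p : ℝ | a ≤ mu p P ∧ mu p P ≤ b} :=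
    (isClosed_le continuous_const (mu_continuous P)).inter
      (isClosed_le (mu_continuous P) continuous_const)
  have hmid' : ∀ p ∈ Set.Icc A B, a ≤ mu p P ∧ mu p P ≤ b := by
    intro p hp
    have h1 : closure (Set.Ioo A B) ⊆ {p : ℝ | a ≤ mu p P ∧ mu p P ≤ b} :=
      closure_minimal (fun q hq => hmid q hq) hcl
    rw [closure_Ioo hAB.ne] at h1
    exact h1 hp
  -- the logit
  set g : ℝ → ℝ := fun p => Real.log (mu p P) - Real.log (1 - mu p P) with hg
  have hgc : ContinuousOn g (Set.Icc A B) := by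
    refine ContinuousOn.sub ?_ ?_
    · exact (mu_continuous P).continuousOn.log fun p hp => by
        have := (hmid' p hp).1
        exact (lt_of_lt_of_le ha this).ne'
    · exact (continuous_const.sub (mu_continuous P)).continuousOn.log fun p hp => by
        have := (hmid' p hp).2
        exact (by linarith only [this, hb] : (0:ℝ) < 1 - mu p P).ne'
  have hder : ∀ p ∈ Set.Ioo A B, HasDerivAt g
      (totalInfl p P / mu p P - (-totalInfl p P) / (1 - mu p P)) p := by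
    intro p hp
    have hp0 : 0 < p := by linarith only [hA0, hp.1]
    have hp1 : p < 1 := by linarith only [hB1, hp.2]
    have hD := mu_russo hP hp0 hp1
    obtain ⟨h1, h2⟩ := hmid p hp
    exact (hD.log (lt_of_lt_of_le ha h1).ne').sub
      ((hD.const_sub 1).log (by linarith only [h2, hb] : (0:ℝ) < 1 - mu p P).ne')
  have hlow : ∀ p ∈ interior (Set.Icc A B), Λ / c ≤ deriv g p := by
    intro p hp
    rw [interior_Icc] at hp
    have hp0 : 0 < p := by linarith only [hA0, hp.1]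
    have hp1 : p < 1 := by linarith only [hB1, hp.2]
    obtain ⟨h1, h2⟩ := hmid p hp
    have hm0 : 0 < mu p P := lt_of_lt_of_le ha h1
    have hm1 : 0 < 1 - mu p P := by linarith only [h2, hb]
    rw [(hder p hp).deriv]
    have e : totalInfl p P / mu p P - (-totalInfl p P) / (1 - mu p P)
        = totalInfl p P / (mu p P * (1 - mu p P)) := by
      field_simp
      ring
    rw [e, div_le_div_iff₀ hc (mul_pos hm0 hm1)]
    have := hinf p hp0 hp1
    linarith only [this]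
  have hdiff : DifferentiableOn ℝ g (interior (Set.Icc A B)) := by
    intro p hp
    rw [interior_Icc] at hp
    exact (hder p hp).differentiableAt.differentiableWithinAt
  have hmvt := Convex.mul_sub_le_image_sub_of_le_deriv (convex_Icc A B) hgc hdiff
    hlow A ⟨le_refl A, hAB.le⟩ B ⟨hAB.le, le_refl B⟩ hAB.le
  have hgB : g B ≤ Real.log (b / (1 - b)) := by
    obtain ⟨h1, h2⟩ := hmid' B ⟨hAB.le, le_refl B⟩
    have hm0 : 0 < mu B P := lt_of_lt_of_le ha h1
    rw [Real.log_div (by linarith only [ha, hab] : (0:ℝ) < b).ne'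
      (by linarith only [hb] : (0:ℝ) < 1 - b).ne']
    have e1 := Real.log_le_log hm0 h2
    have e2 := Real.log_le_log (by linarith only [hb] : (0:ℝ) < 1 - b)
      (by linarith only [h2] : 1 - b ≤ 1 - mu B P)
    change Real.log (mu B P) - Real.log (1 - mu B P) ≤ _
    linarith only [e1, e2]
  have hgA : Real.log (a / (1 - a)) ≤ g A := by
    obtain ⟨h1, h2⟩ := hmid' A ⟨le_refl A, hAB.le⟩
    have hm0 : 0 < mu A P := lt_of_lt_of_le ha h1
    rw [Real.log_div ha.ne' (by linarith only [hab, hb] : (0:ℝ) < 1 - a).ne']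
    have e1 := Real.log_le_log ha h1
    have e2 := Real.log_le_log (by linarith only [h2, hb] : (0:ℝ) < 1 - mu A P)
      (by linarith only [h1] : 1 - mu A P ≤ 1 - a)
    change _ ≤ Real.log (mu A P) - Real.log (1 - mu A P)
    linarith only [e1, e2]
  have h3 : Λ / c * (B - A) ≤ Real.log (b / (1 - b)) - Real.log (a / (1 - a)) := by
    linarith only [hmvt, hgB, hgA]
  calc (B - A) * Λ = c * (Λ / c * (B - A)) := by field_simp
    _ ≤ _ := mul_le_mul_of_nonneg_left h3 hc.le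

/-- the upper bound, all levels `a ≤ b` -/
theorem crit_upper (hr : 2 ≤ r) {C : ℝ} (hC : 0 < C) (hrn : r ≤ n)
    {P : Set (Edge n r → Bool)} (hP : IsUpperSet P) (hne : P.Nonempty)
    (hinf : ∀ p : ℝ, 0 < p → p < 1 →
      Real.log n ^ ((r : ℝ) / ((r : ℝ) - 1)) * (mu p P * (1 - mu p P)) ≤ C * totalInfl p P)
    {a b : ℝ} (ha : 0 < a) (hab : a ≤ b) (hb : b < 1) :
    critProb b P - critProb a P ≤ C * (Real.log (b / (1 - b)) - Real.log (a / (1 - a)))
      * (Real.log n) ^ (-((r : ℝ) / ((r : ℝ) - 1))) := by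
  have hn2 : (2:ℝ) ≤ n := by exact_mod_cast (le_trans hr hrn)
  have hl0 : 0 < Real.log n := Real.log_pos (by linarith only [hn2])
  have hlα0 : 0 < Real.log n ^ ((r : ℝ) / ((r : ℝ) - 1)) := Real.rpow_pos_of_pos hl0 _
  rw [Real.rpow_neg hl0.le, ← div_eq_mul_inv, le_div_iff₀ hlα0]
  exact crit_bound hC hlα0 hP hne hinf ha hab hb

/-- `logit (1 - ε) - logit ε = 2 log ((1 - ε) / ε)` -/
lemma logit_two {ε : ℝ} (h0 : 0 < ε) (h1 : ε < 1 / 2) :
    Real.log ((1 - ε) / (1 - (1 - ε))) - Real.log (ε / (1 - ε))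
      = 2 * Real.log ((1 - ε) / ε) := by
  have e1 : 1 - (1 - ε) = ε := by ring
  have h2 : (0:ℝ) < 1 - ε := by linarith only [h1]
  rw [e1, Real.log_div h2.ne' h0.ne', Real.log_div h0.ne' h2.ne']
  ring

/-- choice of the clique size, with a constant that does not depend on `ε` -/
lemma clique_params' (hr : 2 ≤ r) :
    ∃ M : ℝ, 0 < M ∧ ∃ n0 : ℕ, 2 ≤ n0 ∧ ∀ n : ℕ, n0 ≤ n → ∀ ε : ℝ, 0 < ε → 1 / ε < n →
      ∃ k : ℕ, r ≤ k ∧ k ≤ n ∧ (n : ℝ) ^ k * (1 / 2) ^ (k.choose r) < ε ∧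
      (k.choose r : ℝ) ≤ M * Real.log n ^ ((r : ℝ) / ((r : ℝ) - 1)) := by
  have hr2 : (2:ℝ) ≤ r := by exact_mod_cast hr
  have hr1 : (0:ℝ) < (r:ℝ) - 1 := by linarith only [hr2]
  set A : ℝ := 4 * r * (r.factorial : ℝ) with hA
  have hfac : (1:ℝ) ≤ (r.factorial : ℝ) := by
    exact_mod_cast Nat.one_le_iff_ne_zero.2 (Nat.factorial_ne_zero r)
  have hA1 : 1 ≤ A := by
    rw [hA]
    calc (1:ℝ) = 1 * 1 := by ring
      _ ≤ (4 * r) * (r.factorial : ℝ) :=
        mul_le_mul (by linarith only [hr2]) hfac (by norm_num) (by linarith only [hr2])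
  set α : ℝ := (r : ℝ) / ((r : ℝ) - 1) with hα
  have hA0 : 0 < A := by linarith only [hA1]
  have hAα : 0 < A ^ α := Real.rpow_pos_of_pos hA0 _
  refine ⟨(2 * r) ^ r * A ^ α, by positivity, ?_⟩
  obtain ⟨n0, hn02, hn0⟩ := eventually_big (2 * r * A) (by positivity) 1 one_pos
  refine ⟨n0, hn02, fun n hn ε hε0 hnε => ?_⟩
  obtain ⟨hl1, hln, -⟩ := hn0 n hn
  have hΛ0 : 0 < Real.log n := by linarith only [hl1]
  have hAΛ1 : 1 ≤ A * Real.log n := by
    calc (1:ℝ) = 1 * 1 := by ring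
      _ ≤ A * Real.log n := mul_le_mul hA1 hl1 (by norm_num) hA0.le
  have hAΛ0 : 0 < A * Real.log n := by linarith only [hAΛ1]
  have ht1 : 1 ≤ (A * Real.log n) ^ (1 / ((r:ℝ) - 1)) :=
    Real.one_le_rpow hAΛ1 (by positivity)
  have hjt := Nat.le_ceil ((A * Real.log n) ^ (1 / ((r:ℝ) - 1)))
  have hj2 : ((⌈(A * Real.log n) ^ (1 / ((r:ℝ) - 1))⌉₊ : ℕ) : ℝ)
      ≤ 2 * (A * Real.log n) ^ (1 / ((r:ℝ) - 1)) := by
    have := Nat.ceil_lt_add_one
      (show 0 ≤ (A * Real.log n) ^ (1 / ((r:ℝ) - 1)) by linarith only [ht1])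
    linarith
  set j : ℕ := ⌈(A * Real.log n) ^ (1 / ((r:ℝ) - 1))⌉₊ with hj
  have hj1 : 1 ≤ j := by
    have : (1:ℝ) ≤ j := le_trans ht1 hjt
    exact_mod_cast this
  have hcast : ((r - 1 : ℕ) : ℝ) = (r : ℝ) - 1 := by
    rw [Nat.cast_sub (by omega)]; simp
  have htpow : ((A * Real.log n) ^ (1 / ((r:ℝ) - 1))) ^ (r - 1) = A * Real.log n := by
    rw [one_div, ← hcast]
    exact Real.rpow_inv_natCast_pow hAΛ0.le (by omega)
  have hjpow : A * Real.log n ≤ (j:ℝ) ^ (r - 1) := by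
    calc A * Real.log n = ((A * Real.log n) ^ (1 / ((r:ℝ) - 1))) ^ (r - 1) := htpow.symm
      _ ≤ (j:ℝ) ^ (r - 1) := pow_le_pow_left₀ (by linarith only [ht1]) hjt _
  refine ⟨j + (r - 1), by omega, ?_, ?_, ?_⟩
  · exact k_le_aux hr hj1 rfl hAΛ1 hj2 (by rw [← mul_assoc]; exact hln)
  · exact first_moment_aux hr hj1 rfl hε0 hnε hl1 hjpow
  · refine (size_aux hr hj1 rfl hAΛ0 hj2).trans (le_of_eq ?_)
    rw [Real.mul_rpow hA0.le hΛ0.le]
    ring

/-- lower bound for the width, uniform in `ε` -/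
theorem lower' (hr : 2 ≤ r) :
    ∃ c : ℝ, 0 < c ∧ ∃ n0 : ℕ, ∀ n : ℕ, n0 ≤ n → ∀ ε : ℝ, 1 / (n : ℝ) < ε → ε < 1 / 2 →
      ∃ P : Set (Edge n r → Bool),
      IsProperty P ∧ IsUpperSet P ∧ P.Nonempty ∧ P ≠ Set.univ ∧
      c * Real.log ((1 - ε) / ε) * Real.log n ^ (-((r : ℝ) / ((r : ℝ) - 1))) ≤ width ε P := by
  obtain ⟨M, hM, n0, hn02, h⟩ := clique_params' hr
  refine ⟨1 / (2 * M), by positivity, n0, fun n hn ε hε hε1 => ?_⟩
  have hn2 : (2:ℝ) ≤ n := by exact_mod_cast (le_trans hn02 hn)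
  have hn0 : (0:ℝ) < n := by linarith only [hn2]
  have hε0 : 0 < ε := lt_trans (by positivity) hε
  have hnε : 1 / ε < n := by
    rw [div_lt_iff₀ hn0] at hε
    rw [div_lt_iff₀ hε0]
    linarith only [hε]
  have hlog : 0 < Real.log ((1 - ε) / ε) := by
    apply Real.log_pos
    rw [lt_div_iff₀ hε0]
    linarith only [hε1]
  obtain ⟨k, hrk, hkn, hfm, hch⟩ := h n hn ε hε0 hnε
  refine ⟨hasClique n r k, clique_property k, clique_upper k, clique_nonempty hkn,
    clique_ne_univ hrk, ?_⟩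
  refine le_trans ?_ (clique_width hrk hkn hε0 hε1 hfm)
  have hl : 0 < Real.log n := Real.log_pos (by linarith only [hn2])
  have hchpos : (0:ℝ) < (k.choose r : ℝ) := by exact_mod_cast Nat.choose_pos hrk
  rw [Real.rpow_neg hl.le]
  have hlα : 0 < Real.log n ^ ((r : ℝ) / ((r : ℝ) - 1)) := Real.rpow_pos_of_pos hl _
  rw [le_div_iff₀ (by positivity)]
  calc 1 / (2 * M) * Real.log ((1 - ε) / ε) * (Real.log n ^ ((r : ℝ) / ((r : ℝ) - 1)))⁻¹
        * (2 * (k.choose r : ℝ))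
      ≤ 1 / (2 * M) * Real.log ((1 - ε) / ε) * (Real.log n ^ ((r : ℝ) / ((r : ℝ) - 1)))⁻¹
        * (2 * (M * Real.log n ^ ((r : ℝ) / ((r : ℝ) - 1)))) := by
        apply mul_le_mul_of_nonneg_left _ (by positivity)
        linarith only [hch]
    _ = Real.log ((1 - ε) / ε) := by
        field_simp

end width

end Vale.Agent.P063.H291
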